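import Mathlib
import Vale.Agent.Lib.P248.helper25.ABDefs

/-!
# P248 pool job AB2 (backup copy, helper30): coordinate sections of a Good set are Good
-/

open Vale.Agent.Lib.P248.H25 MeasureTheory
open scoped ENNReal

namespace Vale.Agent.Lib.P248.H30

theorem good_sec {n : ℕ} {A : Set (Fin (n + 1) → ℝ)} {ε R : ℝ} (h : Good A ε R)
    (i : Fin (n + 1)) : Good (sec A i) ε R := by
  have hlin : ∀ (a b : ℝ) (z z' : Fin n → ℝ),
      (i.insertNth (0 : ℝ) (a • z + b • z') : Fin (n + 1) → ℝ)
        = a • (i.insertNth (0 : ℝ) z : Fin (n + 1) → ℝ)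
          + b • (i.insertNth (0 : ℝ) z' : Fin (n + 1) → ℝ) := by
    intro a b z z'
    funext j
    refine Fin.succAboveCases i ?_ ?_ j
    · simp
    · intro k
      simp
  have hcont : Continuous
      (fun z : Fin n → ℝ => (i.insertNth (0 : ℝ) z : Fin (n + 1) → ℝ)) := by
    refine continuous_pi fun j => ?_
    refine Fin.succAboveCases i ?_ ?_ j
    · simp only [Fin.insertNth_apply_same]
      exact continuous_const
    · intro k
      simp only [Fin.insertNth_apply_succAbove]
      exact continuous_apply k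
  refine ⟨?_, ?_, ⟨?_, ?_⟩, h.eps_pos, ?_, ?_⟩
  · exact h.closed.preimage hcont
  · intro z hz z' hz' a b ha hb hab
    show (i.insertNth (0 : ℝ) (a • z + b • z') : Fin (n + 1) → ℝ) ∈ A
    rw [hlin]
    exact h.convex hz hz' ha hb hab
  · intro z hz k
    have h1 := h.ab.1 _ hz (i.succAbove k)
    simpa using h1
  · intro z hz y hy
    show (i.insertNth (0 : ℝ) y : Fin (n + 1) → ℝ) ∈ A
    refine h.ab.2 _ hz _ ?_
    intro j
    refine Fin.succAboveCases i ?_ ?_ j
    · simp
    · intro k
      simpa using hy k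
  · intro z hz
    show (i.insertNth (0 : ℝ) z : Fin (n + 1) → ℝ) ∈ A
    refine h.cube _ ?_
    intro j
    refine Fin.succAboveCases i ?_ ?_ j
    · simp only [Fin.insertNth_apply_same]
      exact ⟨le_refl 0, h.eps_pos.le⟩
    · intro k
      simpa using hz k
  · intro z hz k
    have h1 := h.bdd _ hz (i.succAbove k)
    simpa using h1

end Vale.Agent.Lib.P248.H30
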